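import Vale.Agent.P263B14.Alg
import Mathlib.Algebra.Group.Subgroup.Finite
import Mathlib.Algebra.Group.Prod

/-!
# P263C: two quadratic forms that agree on a Lagrangian have the same majority value
-/

set_option linter.unusedSectionVars false

open Finset

namespace Vale.Agent.P263C14

open Vale.Agent.P263B14 (sg sg_add z2 z2_add)

theorem sg_zero : sg 0 = 1 := rfl

theorem sg_one : sg 1 = -1 := by decide

/-- the sum of a character -/
theorem sum_char {G : Type*} [AddGroup G] [Fintype G] (χ : G → ZMod 2)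
    (hχ : ∀ a b, χ (a + b) = χ a + χ b) (a : G) (ha : χ a ≠ 0) : ∑ g, sg (χ g) = 0 := by
  have h1 : χ a = 1 := (z2 _).resolve_left ha
  have h : ∑ g, sg (χ g) = ∑ g, sg (χ (a + g)) :=
    (Equiv.sum_comp (Equiv.addLeft a) fun g => sg (χ g)).symm
  simp only [hχ, h1, sg_add, sg_one, neg_one_mul, Finset.sum_neg_distrib] at h
  omega

/-- the Gauss sum of a form that vanishes on a subgroup containing its annihilator is positive -/
theorem gauss_pos {W : Type*} [AddCommGroup W] [Fintype W] (β : W → W → ZMod 2)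
    (Q : W → ZMod 2) (hq : ∀ x y, Q (x + y) = Q x + Q y + β x y)
    (hl : ∀ x y z, β (x + y) z = β x z + β y z) (L : AddSubgroup W) (h0 : ∀ l ∈ L, Q l = 0)
    (hL : ∀ w, (∀ l ∈ L, β l w = 0) → w ∈ L) : 0 < ∑ w, sg (Q w) := by
  classical
  have key : (Fintype.card L : ℤ) * ∑ w, sg (Q w) =
      ∑ w, sg (Q w) * ∑ l : L, sg (β l w) := by
    have h1 : ∀ l : L, ∑ w, sg (Q w) = ∑ w, sg (Q w) * sg (β l w) := by
      intro l
      rw [← Equiv.sum_comp (Equiv.addLeft (l : W)) fun w => sg (Q w)]
      refine Finset.sum_congr rfl fun w _ => ?_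
      simp only [Equiv.coe_addLeft, hq, h0 l l.2, zero_add, sg_add]
    calc (Fintype.card L : ℤ) * ∑ w, sg (Q w) = ∑ _l : L, ∑ w, sg (Q w) := by
          simp [Finset.sum_const]
      _ = ∑ l : L, ∑ w, sg (Q w) * sg (β l w) := Finset.sum_congr rfl fun l _ => h1 l
      _ = _ := by rw [Finset.sum_comm]; simp only [Finset.mul_sum]
  have hterm : ∀ w, sg (Q w) * ∑ l : L, sg (β l w) =
      if ∀ l ∈ L, β l w = 0 then (Fintype.card L : ℤ) else 0 := by
    intro w
    split_ifs with h
    · rw [h0 w (hL w h), sg_zero, one_mul]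
      rw [Finset.sum_congr rfl fun (l : L) _ => show sg (β l w) = 1 by rw [h l l.2]; rfl]
      simp
    · push Not at h
      obtain ⟨l, hl', hne⟩ := h
      rw [sum_char (fun l : L => β l w) (fun a b => hl _ _ _) ⟨l, hl'⟩ hne, mul_zero]
  have hc : (0 : ℤ) < Fintype.card L := by exact_mod_cast Fintype.card_pos
  have hb0 : ∀ l, β l 0 = 0 := by
    intro l
    have h := hq l 0
    rw [add_zero, h0 0 L.zero_mem, add_zero] at h
    linear_combination -h
  have hpos : 0 < (Fintype.card L : ℤ) * ∑ w, sg (Q w) := by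
    rw [key]
    refine Finset.sum_pos' (fun w _ => ?_) ⟨0, Finset.mem_univ _, ?_⟩
    · rw [hterm]; split_ifs
      · exact hc.le
      · exact le_rfl
    · rw [hterm, if_pos fun l _ => hb0 l]; exact hc
  exact (pos_iff_pos_of_mul_pos hpos).1 hc

theorem sum_sg_nat {V : Type*} [Fintype V] (φ : V → ZMod 2) :
    ∑ x, sg (φ x) = (Nat.card V : ℤ) - 2 * (Nat.card {x : V // φ x = 1} : ℤ) := by
  classical
  have h : ∀ x, sg (φ x) = 1 - 2 * (if φ x = 1 then (1 : ℤ) else 0) := by
    intro x
    rcases z2 (φ x) with h | h <;> rw [h] <;> decide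
  simp only [h, Finset.sum_sub_distrib, ← Finset.mul_sum, Finset.sum_boole, Finset.sum_const,
    Finset.card_univ, Nat.card_eq_fintype_card, Fintype.card_subtype, nsmul_eq_mul, mul_one]

/-- **Gauss sums**: forms that agree on a subgroup of the product which contains its annihilator
have the same majority value (and neither is balanced). -/
theorem gauss {V V' : Type*} [AddCommGroup V] [AddCommGroup V'] [Finite V] [Finite V']
    (B : V → V → ZMod 2) (B' : V' → V' → ZMod 2) (φ : V → ZMod 2) (φ' : V' → ZMod 2)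
    (hq : ∀ x y, φ (x + y) = φ x + φ y + B x y) (hq' : ∀ x y, φ' (x + y) = φ' x + φ' y + B' x y)
    (hl : ∀ x y z, B (x + y) z = B x z + B y z) (hl' : ∀ x y z, B' (x + y) z = B' x z + B' y z)
    (L : AddSubgroup (V × V')) (h0 : ∀ l ∈ L, φ l.1 = φ' l.2)
    (hL : ∀ x x', (∀ l ∈ L, B l.1 x = B' l.2 x') → (x, x') ∈ L) :
    Nat.card V < 2 * Nat.card {x : V // φ x = 1} ↔
      Nat.card V' < 2 * Nat.card {x : V' // φ' x = 1} := by
  classical
  have := Fintype.ofFinite V
  have := Fintype.ofFinite V'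
  have h := gauss_pos (W := V × V') (fun a b => B a.1 b.1 + B' a.2 b.2) (fun a => φ a.1 + φ' a.2)
    (fun x y => by simp only [Prod.fst_add, Prod.snd_add, hq, hq']; ring)
    (fun x y z => by simp only [Prod.fst_add, Prod.snd_add, hl, hl']; ring) L
    (fun l hl => by rw [h0 l hl]; exact z2_add _)
    (fun w hw => hL w.1 w.2 fun l hl => by
      have h1 := hw l hl
      have h2 := z2_add (B' l.2 w.2)
      linear_combination h1 - h2)
  simp only [sg_add] at h
  rw [Fintype.sum_prod_type] at h
  simp only [← Finset.mul_sum, ← Finset.sum_mul] at h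
  rw [sum_sg_nat, sum_sg_nat] at h
  rcases pos_and_pos_or_neg_and_neg_of_mul_pos h with ⟨h1, h2⟩ | ⟨h1, h2⟩
  · constructor <;> intro <;> omega
  · constructor <;> intro <;> omega

end Vale.Agent.P263C14
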